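import Vale.Agent.P355.Tao.Poly

/-!
P355: the thirty balanced rows of cube roots and the twelve complete sets of them (generated).
-/

noncomputable section

namespace Vale.Agent.P355.Tao

/-- balanced rows starting with one -/
def cand : Fin 30 → Fin 6 → ℕ :=
  ![![0, 0, 1, 1, 2, 2],
    ![0, 0, 1, 2, 1, 2],
    ![0, 0, 1, 2, 2, 1],
    ![0, 0, 2, 1, 1, 2],
    ![0, 0, 2, 1, 2, 1],
    ![0, 0, 2, 2, 1, 1],
    ![0, 1, 0, 1, 2, 2],
    ![0, 1, 0, 2, 1, 2],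
    ![0, 1, 0, 2, 2, 1],
    ![0, 1, 1, 0, 2, 2],
    ![0, 1, 1, 2, 0, 2],
    ![0, 1, 1, 2, 2, 0],
    ![0, 1, 2, 0, 1, 2],
    ![0, 1, 2, 0, 2, 1],
    ![0, 1, 2, 1, 0, 2],
    ![0, 1, 2, 1, 2, 0],
    ![0, 1, 2, 2, 0, 1],
    ![0, 1, 2, 2, 1, 0],
    ![0, 2, 0, 1, 1, 2],
    ![0, 2, 0, 1, 2, 1],
    ![0, 2, 0, 2, 1, 1],
    ![0, 2, 1, 0, 1, 2],
    ![0, 2, 1, 0, 2, 1],
    ![0, 2, 1, 1, 0, 2],
    ![0, 2, 1, 1, 2, 0],
    ![0, 2, 1, 2, 0, 1],
    ![0, 2, 1, 2, 1, 0],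
    ![0, 2, 2, 0, 1, 1],
    ![0, 2, 2, 1, 0, 1],
    ![0, 2, 2, 1, 1, 0]]

/-- the rows orthogonal to a given one -/
def compMask : Fin 30 → ℕ :=
  ![905982368,
    692142416,
    413302984,
    85534212,
    43391490,
    7130113,
    812843014,
    713596933,
    486821891,
    235864088,
    290758696,
    548950064,
    349178129,
    590349449,
    187173154,
    214172836,
    617087562,
    321126996,
    37914416,
    69290664,
    25181272,
    269117540,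
    537236578,
    135370900,
    135423242,
    537289361,
    269062921,
    25215878,
    69342533,
    37824707]

/-- the complete sets -/
def setMask : Fin 12 → ℕ :=
  ![2639904, 4490272, 9443344, 17835016, 33948176, 67699208, 142639236, 151011586, 270663748, 335548673, 541130818, 570433665]

/-- the column permutations of the complete sets -/
def setPerm : Fin 12 → Fin 6 → Fin 6 :=
  ![![0, 1, 4, 5, 2, 3],
    ![0, 1, 4, 5, 3, 2],
    ![0, 1, 4, 2, 5, 3],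
    ![0, 1, 4, 2, 3, 5],
    ![0, 1, 4, 3, 5, 2],
    ![0, 1, 4, 3, 2, 5],
    ![0, 1, 2, 4, 5, 3],
    ![0, 1, 2, 4, 3, 5],
    ![0, 1, 2, 5, 4, 3],
    ![0, 1, 2, 3, 4, 5],
    ![0, 1, 2, 5, 3, 4],
    ![0, 1, 2, 3, 5, 4]]

end Vale.Agent.P355.Tao
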