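import Vale.Agent.P355.Tao.S6
import Vale.Agent.P355.Tao.CubeData

/-!
P355: a Hadamard matrix of order six whose dephased entries are cube roots of unity is equivalent
to the Tao matrix.
-/

noncomputable section

open scoped BigOperators ComplexConjugate
open Finset

namespace Vale.Agent.P355.Tao

lemma eis_eq_zero {z : Eis} (h : eis z = 0) : z = (0, 0) := by
  obtain ⟨x, y⟩ := z
  have him := congrArg Complex.im h
  have hre := congrArg Complex.re h
  simp [eis, om] at him hre
  have hb : y = 0 := him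
  have ha : x = 0 := by
    rw [hb] at hre
    simpa using hre
  exact Prod.ext ha hb

lemma eSum_eq_zero {f : Fin 6 → ℕ} (h : ∑ k, om ^ f k = 0) : eSum f = (0, 0) :=
  eis_eq_zero (by rw [eis_eSum, h])

lemma cube_cases {z : ℂ} (h : z ^ 3 = 1) : ∃ e : Fin 3, z = om ^ (e : ℕ) := by
  have e : (z - 1) * (z - om) * (z - om ^ 2) = 0 := by
    have hs := om_sq
    have hc := om_cube
    linear_combination h - hc + (z - z ^ 2) * hs + z * hc
  rcases mul_eq_zero.1 e with h1 | h1
  · rcases mul_eq_zero.1 h1 with h2 | h2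
    · exact ⟨0, by simpa using sub_eq_zero.1 h2⟩
    · exact ⟨1, by simpa using sub_eq_zero.1 h2⟩
  · exact ⟨2, by simpa using sub_eq_zero.1 h1⟩

lemma om_pow_eq_one {e : Fin 3} (h : om ^ (e : ℕ) = 1) : e = 0 := by
  have h1 : eis (omP e) = eis (omP 0) := by rw [eis_omP, eis_omP, h, pow_zero]
  have key : ∀ f : Fin 3, ((omP f).1 - (omP 0).1, (omP f).2 - (omP 0).2) = ((0, 0) : Eis) → f = 0 := by
    decide +kernel
  refine key e (eis_eq_zero ?_)
  simp only [eis] at h1 ⊢
  push_cast
  linear_combination h1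

/-- every balanced row is a candidate -/
lemma cand_complete : ∀ a b c d e : Fin 3,
    eSum ![0, (a : ℕ), b, c, d, e] = (0, 0) →
      ∃ i, cand i = ![0, (a : ℕ), b, c, d, e] := by
  decide +kernel

lemma compMask_spec : ∀ i j : Fin 30,
    eSum (fun k => cand i k + 2 * cand j k) = (0, 0) → (compMask i).testBit (j : ℕ) = true := by
  decide +kernel

lemma compMask_self : ∀ i, ¬ eSum (fun k => cand i k + 2 * cand i k) = (0, 0) := by decide +kernel

lemma setMask_spec : ∀ (t : Fin 12) (i : Fin 30), (setMask t).testBit (i : ℕ) = true →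
    ∃ l, ∀ k, cand i k = expo l (setPerm t k) := by
  decide +kernel

lemma setPerm_inj : ∀ t a b, setPerm t a = setPerm t b → a = b := by decide +kernel

lemma expo_zero : ∀ k, expo 0 k = 0 := by decide +kernel

/-- the search over complete sets of rows -/
def search : ℕ → ℕ → ℕ → Bool
  | 0, _, chosen => (List.finRange 12).any fun t => setMask t == chosen
  | d + 1, allowed, chosen => (List.finRange 30).all fun i =>
      !(allowed.testBit (i : ℕ)) || search d (allowed &&& compMask i) (chosen ||| 2 ^ (i : ℕ))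

lemma search_ok : search 5 1073741823 0 = true := by decide +kernel

lemma search_sound : ∀ (d allowed chosen : ℕ) (r : Fin d → Fin 30),
    search d allowed chosen = true → (∀ a, allowed.testBit (r a : ℕ) = true) →
    (∀ a b, a ≠ b → (compMask (r a)).testBit (r b : ℕ) = true) →
    ∃ t, (∀ j, chosen.testBit j = true → (setMask t).testBit j = true) ∧
      ∀ a, (setMask t).testBit (r a : ℕ) = true := by
  intro d
  induction d with
  | zero =>
    intro allowed chosen r h _ _
    simp only [search, List.any_eq_true, beq_iff_eq] at h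
    obtain ⟨t, -, ht⟩ := h
    exact ⟨t, fun j hj => by rwa [ht], fun a => a.elim0⟩
  | succ d ih =>
    intro allowed chosen r h hal hco
    simp only [search, List.all_eq_true, Bool.or_eq_true, Bool.not_eq_true'] at h
    rcases h (r 0) (List.mem_finRange _) with h0 | h0
    · rw [hal 0] at h0; simp at h0
    obtain ⟨t, ht, hr⟩ := ih _ _ (fun a => r a.succ) h0
      (fun a => by rw [Nat.testBit_and, hal, hco 0 a.succ (Fin.succ_ne_zero a).symm]; rfl)
      (fun a b hab => hco _ _ fun e => hab (Fin.succ_injective _ e))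
    refine ⟨t, fun j hj => ht j (by rw [Nat.testBit_or, hj]; rfl), fun a => ?_⟩
    refine Fin.cases ?_ hr a
    refine ht _ ?_
    rw [Nat.testBit_or, Nat.testBit_two_pow_self, Bool.or_true]

variable {H : Fin 6 → Fin 6 → ℂ}

/-- cube-root dephased Hadamard matrices are equivalent to the Tao matrix -/
theorem cubeRoot_equiv (huni : ∀ l k, ‖H l k‖ = 1)
    (horth : ∀ l m, l ≠ m → ∑ k, H l k * conj (H m k) = 0)
    (hcube : ∀ l k, (H l k * H 0 0 * conj (H l 0) * conj (H 0 k)) ^ 3 = 1) :
    ∃ (p q : Fin 6 ≃ Fin 6) (a b : Fin 6 → ℂ), ∀ l k, H l k = a l * b k * S (p l) (q k) := by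
  choose e he using fun l k => cube_cases (hcube l k)
  have u := fun l k => conj_mul_self_of_norm (huni l k)
  have e0 : ∀ k, e 0 k = 0 := fun k => om_pow_eq_one (by
    rw [← he]; linear_combination (H 0 k * conj (H 0 k)) * u 0 0 + u 0 k)
  have e0' : ∀ l, e l 0 = 0 := fun l => om_pow_eq_one (by
    rw [← he]; linear_combination (H l 0 * conj (H l 0)) * u 0 0 + u l 0)
  have form : ∀ l k, H l k = H l 0 * (conj (H 0 0) * H 0 k) * om ^ (e l k : ℕ) := fun l k => by
    rw [← he]
    linear_combination (-(H l k * (H l 0 * conj (H l 0)) * (H 0 0 * conj (H 0 0)))) * u 0 k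
      - (H l k * (H l 0 * conj (H l 0))) * u 0 0 - H l k * u l 0
  have orth : ∀ l m, l ≠ m → eSum (fun k => (e l k : ℕ) + 2 * (e m k : ℕ)) = (0, 0) := by
    intro l m hlm
    refine eSum_eq_zero ?_
    have h := horth l m hlm
    have hk : ∀ k, H l k * conj (H m k) = H l 0 * conj (H m 0) *
        om ^ ((e l k : ℕ) + 2 * (e m k : ℕ)) := fun k => by
      rw [form l k, form m k]
      simp only [map_mul, map_pow, conj_om, Complex.conj_conj, ← pow_mul, pow_add]
      linear_combination (H l 0 * conj (H m 0) * om ^ (e l k : ℕ) * om ^ (2 * (e m k : ℕ))) *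
        (H 0 k * conj (H 0 k) * u 0 0 + u 0 k)
    rw [sum_congr rfl fun k _ => hk k, ← mul_sum] at h
    refine (mul_eq_zero.1 h).resolve_left (mul_ne_zero ?_ ?_)
    · intro hz; simpa [hz] using huni l 0
    · intro hz; simpa [(map_eq_zero _).1 hz] using huni m 0
  have hr : ∀ l, l ≠ 0 → ∃ i, ∀ k, cand i k = (e l k : ℕ) := by
    intro l hl
    have h := orth l 0 hl
    have ef : (fun k => (e l k : ℕ) + 2 * (e 0 k : ℕ)) =
        ![0, (e l 1 : ℕ), e l 2, e l 3, e l 4, e l 5] := by
      funext k; fin_cases k <;> simp [e0, e0' l]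
    rw [ef] at h
    obtain ⟨i, hi⟩ := cand_complete (e l 1) (e l 2) (e l 3) (e l 4) (e l 5) h
    refine ⟨i, fun k => ?_⟩
    rw [hi]
    fin_cases k <;> simp [e0' l]
  choose r hr using fun a : Fin 5 => hr a.succ (Fin.succ_ne_zero a)
  have hc : ∀ a b, a ≠ b → (compMask (r a)).testBit (r b : ℕ) = true := fun a b hab => by
    refine compMask_spec _ _ ?_
    simp only [hr]
    exact orth _ _ fun h => hab (Fin.succ_injective _ h)
  obtain ⟨t, -, ht⟩ := search_sound 5 _ 0 r search_ok (fun a => by
    rw [show (1073741823 : ℕ) = 2 ^ 30 - 1 by norm_num, Nat.testBit_two_pow_sub_one]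
    exact decide_eq_true (r a).isLt) hc
  choose p' hp' using fun a => setMask_spec t (r a) (ht a)
  set p : Fin 6 → Fin 6 := Fin.cases 0 p' with hp
  have hpe : ∀ l k, om ^ (e l k : ℕ) = S (p l) (setPerm t k) := fun l => by
    refine Fin.cases ?_ (fun a => ?_) l
    · intro k; simp [hp, S, e0, expo_zero]
    · intro k
      simp only [hp, Fin.cases_succ, S]
      rw [← hp' a k, hr a k]
  have hpinj : Function.Injective p := by
    intro l m hlm
    by_contra hne
    have h := orth l m hne
    have h1 : ∑ k, om ^ ((e l k : ℕ) + 2 * (e m k : ℕ)) = 6 := by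
      have : ∀ k, om ^ ((e l k : ℕ) + 2 * (e m k : ℕ)) = 1 := fun k => by
        rw [pow_add, mul_comm 2 (e m k : ℕ), pow_mul, hpe, hpe, hlm, S, ← pow_mul, ← pow_add,
          show expo (p m) (setPerm t k) + expo (p m) (setPerm t k) * 2 =
            3 * expo (p m) (setPerm t k) by ring, om_pow_three]
      simp [this]
    rw [← eis_eSum, h] at h1
    simp [eis] at h1
  refine ⟨Equiv.ofBijective p (Finite.injective_iff_bijective.1 hpinj),
    Equiv.ofBijective (setPerm t) (Finite.injective_iff_bijective.1 fun a b => setPerm_inj t a b),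
    fun l => H l 0, fun k => conj (H 0 0) * H 0 k, fun l k => ?_⟩
  rw [form l k, hpe]
  rfl

/-- the certificate on a cube-root Hadamard matrix -/
theorem phi_neg_of_cubeRoot {h : Fin 6 → Fin 6 → ℂ} (hh : InM h)
    (hcube : ∀ l k, (h l k * h 0 0 * conj (h l 0) * conj (h 0 k)) ^ 3 = 1) : Phi h ≤ -57 := by
  obtain ⟨p, q, a, b, e⟩ := cubeRoot_equiv hh.unimod hh.row_orth hcube
  exact phi_neg_of_equiv hh p q a b e

/-- the certificate at a configuration over a Hadamard matrix with cube-root dephased entries -/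
theorem phi_hmat_neg_of_cubeRoot (hH : IsHad H) {w : Fin 6 → ℂ} (hw : ∀ i, ‖w i‖ = 1)
    (hy : ∀ k, ‖∑ j, conj (H j k) * w j‖ ^ 2 = 6)
    (hcube : ∀ l k, (H l k * H 0 0 * conj (H l 0) * conj (H 0 k)) ^ 3 = 1) :
    Phi (hmat H w) ≤ -57 := by
  refine phi_neg_of_cubeRoot (inM_hmat hH hw hy) fun l k => ?_
  rw [← hcube l k]
  congr 1
  simp only [hmat, map_mul, Complex.conj_conj]
  have u := fun i => conj_mul_self_of_norm (hw i)
  have v := fun i => conj_mul_self_of_norm (yv_unimod hy i)
  linear_combination (H l k * H 0 0 * conj (H l 0) * conj (H 0 k)) *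
    ((w 0 * conj (w 0)) * (yv H w k * conj (yv H w k)) * (yv H w 0 * conj (yv H w 0)) * u l
      + (yv H w k * conj (yv H w k)) * (yv H w 0 * conj (yv H w 0)) * u 0
      + (yv H w 0 * conj (yv H w 0)) * v k + v 0)

/-- constant cubes of the column ratios give cube-root dephased entries -/
theorem cube_of_colCubes {H : Fin 6 → Fin 6 → ℂ} (huni : ∀ l k, ‖H l k‖ = 1)
    (hc : ∀ c d, ∃ z : ℂ, ∀ l, (H l c * conj (H l d)) ^ 3 = z) :
    ∀ l k, (H l k * H 0 0 * conj (H l 0) * conj (H 0 k)) ^ 3 = 1 := by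
  intro l k
  obtain ⟨z, hz⟩ := hc k 0
  calc (H l k * H 0 0 * conj (H l 0) * conj (H 0 k)) ^ 3
      = (H l k * conj (H l 0)) ^ 3 * conj ((H 0 k * conj (H 0 0)) ^ 3) := by
        simp only [map_pow, map_mul, Complex.conj_conj]; ring
    _ = (H 0 k * conj (H 0 0)) ^ 3 * conj ((H 0 k * conj (H 0 0)) ^ 3) := by rw [hz, hz]
    _ = 1 := conj_mul_self_of_norm (by simp [huni])

/-- the certificate when the cubes of the column ratios are constant -/
theorem phi_neg_of_colCubes {h : Fin 6 → Fin 6 → ℂ} (hh : InM h)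
    (hc : ∀ c d, ∃ z : ℂ, ∀ l, (h l c * conj (h l d)) ^ 3 = z) : Phi h ≤ -57 :=
  phi_neg_of_cubeRoot hh (cube_of_colCubes hh.unimod hc)

end Vale.Agent.P355.Tao
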