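import Vale.Agent.P355.Cert.ZeroTotal
import Vale.Agent.P355.Tao.CubeRoot

/-!
P355: seven pairwise mutually unbiased bases of `ℂ⁶` have no transition matrix with cube-root
dephased entries.
-/

open scoped InnerProductSpace ComplexConjugate

namespace Vale.Agent.P355.Tao

open Cert.ZeroTotal

/-- no complete set has a first matrix with cube-root dephased entries -/
theorem not_complete_of_cubeRoot {X : Fin 6 → Fin 6 → Fin 6 → ℂ} (hX : Complete X)
    (hcube : ∀ l k, (H0 X l k * H0 X 0 0 * conj (H0 X l 0) * conj (H0 X 0 k)) ^ 3 = 1) : False :=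
  not_complete_of_phi_neg_local hX fun q a _ =>
    lt_of_le_of_lt (phi_hmat_neg_of_cubeRoot (isHad_H0 hX) (hX.unimod _ _) (hy_H0 hX q a) hcube)
      (by norm_num)

/-- any two of seven pairwise unbiased bases head a complete set -/
theorem exists_complete_H0 (B : Fin 7 → OrthonormalBasis (Fin 6) ℂ (EuclideanSpace ℂ (Fin 6)))
    (hB : ∀ p q, p ≠ q → ∀ a b, ‖⟪B p a, B q b⟫_ℂ‖ ^ 2 = 1 / 6) {p q : Fin 7} (hpq : p ≠ q) :
    ∃ X, Complete X ∧ H0 X = fun l k => (Real.sqrt 6 : ℂ) * ⟪B p l, B q k⟫_ℂ := by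
  obtain ⟨σ, h0, h1⟩ : ∃ σ : Equiv.Perm (Fin 7), σ 0 = p ∧ σ 1 = q := by
    let τ : Equiv.Perm (Fin 7) := Equiv.swap 0 p
    refine ⟨(Equiv.swap 1 (τ.symm q)).trans τ, ?_, by simp⟩
    have hne : (0 : Fin 7) ≠ τ.symm q := fun e => hpq <| by
      have := congrArg τ e
      rw [Equiv.apply_symm_apply, Equiv.swap_apply_left] at this
      exact this
    rw [Equiv.trans_apply, Equiv.swap_apply_of_ne_of_ne (by decide) hne, Equiv.swap_apply_left]
  refine ⟨_, complete_seven (fun i => B (σ i))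
    fun i j hij => hB _ _ fun e => hij (σ.injective e), ?_⟩
  funext l k
  simp only [H0, h0, show (0 : Fin 6).succ = (1 : Fin 7) from rfl, h1]

/-- seven pairwise unbiased bases have no transition matrix with cube-root dephased entries -/
theorem no_seven_of_cubeRoot (B : Fin 7 → OrthonormalBasis (Fin 6) ℂ (EuclideanSpace ℂ (Fin 6)))
    (hB : ∀ p q, p ≠ q → ∀ a b, ‖⟪B p a, B q b⟫_ℂ‖ ^ 2 = 1 / 6) {p q : Fin 7} (hpq : p ≠ q)
    {T : Fin 6 → Fin 6 → ℂ} (hT : T = fun l k => (Real.sqrt 6 : ℂ) * ⟪B p l, B q k⟫_ℂ)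
    (hcube : ∀ l k, (T l k * T 0 0 * conj (T l 0) * conj (T 0 k)) ^ 3 = 1) : False := by
  obtain ⟨X, hX, eX⟩ := exists_complete_H0 B hB hpq
  rw [hT, ← eX] at hcube
  exact not_complete_of_cubeRoot hX hcube

/-- seven pairwise unbiased bases have no transition matrix whose column ratios have constant
cubes -/
theorem no_seven_of_colCubes (B : Fin 7 → OrthonormalBasis (Fin 6) ℂ (EuclideanSpace ℂ (Fin 6)))
    (hB : ∀ p q, p ≠ q → ∀ a b, ‖⟪B p a, B q b⟫_ℂ‖ ^ 2 = 1 / 6) {p q : Fin 7} (hpq : p ≠ q)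
    {T : Fin 6 → Fin 6 → ℂ} (hT : T = fun l k => (Real.sqrt 6 : ℂ) * ⟪B p l, B q k⟫_ℂ)
    (hc : ∀ c d, ∃ z : ℂ, ∀ l, (T l c * conj (T l d)) ^ 3 = z) : False := by
  obtain ⟨X, hX, eX⟩ := exists_complete_H0 B hB hpq
  rw [hT, ← eX] at hc
  exact not_complete_of_cubeRoot hX (cube_of_colCubes (isHad_H0 hX).unimod hc)

/-- seven pairwise unbiased bases have no transition matrix whose row ratios have constant
cubes -/
theorem no_seven_of_rowCubes (B : Fin 7 → OrthonormalBasis (Fin 6) ℂ (EuclideanSpace ℂ (Fin 6)))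
    (hB : ∀ p q, p ≠ q → ∀ a b, ‖⟪B p a, B q b⟫_ℂ‖ ^ 2 = 1 / 6) {p q : Fin 7} (hpq : p ≠ q)
    {T : Fin 6 → Fin 6 → ℂ} (hT : T = fun l k => (Real.sqrt 6 : ℂ) * ⟪B p l, B q k⟫_ℂ)
    (hr : ∀ l m, ∃ z : ℂ, ∀ k, (T l k * conj (T m k)) ^ 3 = z) : False := by
  obtain ⟨X, hX, eX⟩ := exists_complete_H0 B hB hpq
  rw [hT, ← eX] at hr
  refine not_complete_of_cubeRoot hX fun l k => ?_
  obtain ⟨z, hz⟩ := hr l 0
  calc (H0 X l k * H0 X 0 0 * conj (H0 X l 0) * conj (H0 X 0 k)) ^ 3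
      = (H0 X l k * conj (H0 X 0 k)) ^ 3 * conj ((H0 X l 0 * conj (H0 X 0 0)) ^ 3) := by
        simp only [map_pow, map_mul, Complex.conj_conj]; ring
    _ = (H0 X l 0 * conj (H0 X 0 0)) ^ 3 * conj ((H0 X l 0 * conj (H0 X 0 0)) ^ 3) := by
        rw [hz, hz]
    _ = 1 := conj_mul_self_of_norm (by simp [(isHad_H0 hX).unimod])

end Vale.Agent.P355.Tao
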