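import Vale.Agent.P355.Tao.Data

/-!
P355: the polynomials of the Tao branch and the two kernel-checked identities.
-/

noncomputable section

namespace Vale.Agent.P355.Tao

/-- the code of a single variable -/
def pw (j : Fin 6) : ℕ := 16 ^ (j : ℕ)

/-- the code of the conjugate of a single variable -/
def pv (j : Fin 6) : ℕ := ones - pw j

/-- the linear forms -/
def sP (k : Fin 6) : Poly := psum fun j => [(pw j, omP (2 * expo j k))]

/-- the conjugate linear forms -/
def tP (k : Fin 6) : Poly := psum fun j => [(pv j, omP (expo j k))]

/-- the constraints -/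
def gP (k : Fin 6) : Poly := add (mul (sP k) (tP k)) [(ones, ((-6 : ℤ), (0 : ℤ)))]

/-- six times the row polynomial -/
def aP (l : Fin 6) : Poly := psum fun k => smul (omP (2 * expo l k)) (mul (sP k) (sP k))

/-- six times the conjugate row polynomial -/
def aQ (l : Fin 6) : Poly := psum fun k => smul (omP (expo l k)) (mul (tP k) (tP k))

/-- six times the linear invariant -/
def fP : Poly := psum fun l => mulT (pv l + pv l, (1, 0)) (aP l)

/-- six times the conjugate linear invariant -/
def fQ : Poly := psum fun l => mulT (pw l + pw l, (1, 0)) (aQ l)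

/-- the pair forms -/
def cP (l m : Fin 6) : Poly := psum fun k => smul (omP (2 * expo l k + 2 * expo m k)) (sP k)

/-- the conjugate pair forms -/
def cQ (l m : Fin 6) : Poly := psum fun k => smul (omP (expo l k + expo m k)) (tP k)

/-- six times the pair invariant -/
def pairP : Poly :=
  psum fun l => psum fun m => mulT (pv l + pv m, (1, 0)) (mul (cP l m) (cP m l))

/-- six times the conjugate pair invariant -/
def pairQ : Poly :=
  psum fun l => psum fun m => mulT (pw l + pw m, (1, 0)) (mul (cQ l m) (cQ m l))

/-- the sum of cubes -/
def cubeP : Poly := psum fun j => [(pw j + pw j + pw j, ((1 : ℤ), (0 : ℤ)))]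

/-- the conjugate sum of cubes -/
def cubeQ : Poly := psum fun j => [(pv j + pv j + pv j, ((1 : ℤ), (0 : ℤ)))]

/-- left side of the first identity -/
def lhs1 : Poly := add (add pairP pairQ) (smul (9, 0) (add fP fQ))

/-- right side of the first identity -/
def rhs1 : Poly := psum fun k => smul (6, 0) (mul (gP k) (gP k))

/-- left side of the second identity -/
def lhs2 : Poly :=
  add (smul (6, 0) (mul cubeP cubeQ))
    (add (mulT (ones, (1, 0)) (smul (3, 0) (add fP fQ)))
      [(ones + ones + ones, ((108 : ℤ), (0 : ℤ)))])

/-- right side of the second identity -/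
def rhs2 : Poly := psum fun k => mul (gP k) (mult k)

theorem check1 : isZero (add lhs1 (smul (-1, 0) rhs1)) = true := by decide +kernel

theorem check2 : isZero (add lhs2 (smul (-1, 0) rhs2)) = true := by decide +kernel

end Vale.Agent.P355.Tao
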