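import Mathlib

/-!
P355: polynomials in six unimodular variables with coefficients in the Eisenstein integers,
as lists of (code of the exponents, coefficient), with sound operations for the kernel.
-/

noncomputable section

open scoped ComplexConjugate

namespace Vale.Agent.P355.Tao

/-- the value of the monomial whose exponents are the base sixteen digits of the code -/
def ev : ℕ → (ℕ → ℂ) → ℕ → ℂ
  | 0, _, _ => 1
  | n + 1, v, c => v 0 ^ (c % 16) * ev n (fun i => v (i + 1)) (c / 16)

/-- all of the first `n` exponents are at most `B` -/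
def small : ℕ → ℕ → ℕ → Bool
  | 0, _, _ => true
  | n + 1, B, c => Nat.ble (c % 16) B && small n B (c / 16)

lemma ev_add : ∀ {n A B a b : ℕ} (v : ℕ → ℂ), small n A a = true → small n B b = true →
    A + B < 16 → ev n v (a + b) = ev n v a * ev n v b := by
  intro n
  induction n with
  | zero => simp [ev]
  | succ n ih =>
    intro A B a b v ha hb hAB
    simp only [small, Bool.and_eq_true, Nat.ble_eq] at ha hb
    have hm : (a + b) % 16 = a % 16 + b % 16 := by omega
    have hd : (a + b) / 16 = a / 16 + b / 16 := by omega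
    simp only [ev, hm, hd, ih (fun i => v (i + 1)) ha.2 hb.2 hAB, pow_add]
    ring

/-- the code of the product of all six variables -/
def ones : ℕ := 1118481

/-- the variables as a function of a natural index -/
def ext (w : Fin 6 → ℂ) (i : ℕ) : ℂ := if h : i < 6 then w ⟨i, h⟩ else 1

/-- the value of a monomial -/
def mon (w : Fin 6 → ℂ) (c : ℕ) : ℂ := ev 6 (ext w) c

/-- the primitive cube root of unity -/
def om : ℂ := (-1 + (Real.sqrt 3 : ℂ) * Complex.I) / 2

lemma om_sq : om ^ 2 = -1 - om := by
  have h : ((Real.sqrt 3 : ℝ) : ℂ) ^ 2 = 3 := by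
    rw [← Complex.ofReal_pow, Real.sq_sqrt (by norm_num)]; norm_num
  unfold om
  linear_combination (((Real.sqrt 3 : ℝ) : ℂ) ^ 2 / 4) * Complex.I_sq - (1 / 4 : ℂ) * h

lemma om_cube : om ^ 3 = 1 := by linear_combination (om - 1) * om_sq

lemma conj_om : conj om = om ^ 2 := by
  rw [om_sq, om]
  simp only [map_div₀, map_add, map_mul, map_neg, map_one, map_ofNat, Complex.conj_ofReal,
    Complex.conj_I]
  ring

/-- a coefficient -/
abbrev Eis := ℤ × ℤ

/-- the value of a coefficient -/
def eis (z : Eis) : ℂ := (z.1 : ℂ) + (z.2 : ℂ) * om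

/-- product of coefficients -/
def eMul (z u : Eis) : Eis := (z.1 * u.1 - z.2 * u.2, z.1 * u.2 + z.2 * u.1 - z.2 * u.2)

lemma eis_mul (z u : Eis) : eis (eMul z u) = eis z * eis u := by
  simp only [eis, eMul]
  push_cast
  linear_combination (-((z.2 : ℂ) * u.2)) * om_sq

/-- a power of the cube root -/
def omP (e : ℕ) : Eis := if e % 3 = 0 then (1, 0) else if e % 3 = 1 then (0, 1) else (-1, -1)

lemma eis_omP (e : ℕ) : eis (omP e) = om ^ e := by
  conv_rhs => rw [← Nat.div_add_mod e 3, pow_add, pow_mul, om_cube, one_pow, one_mul]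
  have h : e % 3 < 3 := Nat.mod_lt _ (by norm_num)
  unfold omP
  interval_cases e % 3 <;> simp [eis, om_sq] <;> ring

/-- polynomials -/
abbrev Poly := List (ℕ × Eis)

/-- the value of a polynomial -/
def evP (w : Fin 6 → ℂ) (p : Poly) : ℂ := (p.map fun t => eis t.2 * mon w t.1).sum

@[simp] lemma evP_nil (w : Fin 6 → ℂ) : evP w [] = 0 := rfl

@[simp] lemma evP_cons (w : Fin 6 → ℂ) (t : ℕ × Eis) (p : Poly) :
    evP w (t :: p) = eis t.2 * mon w t.1 + evP w p := by simp [evP]

@[simp] lemma evP_append (w : Fin 6 → ℂ) (p q : Poly) : evP w (p ++ q) = evP w p + evP w q := by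
  simp [evP]

/-- the smallness of all exponents -/
def sm (B : ℕ) (p : Poly) : Bool := p.all fun t => small 6 B t.1

/-- merge of two sorted lists, adding equal monomials -/
def merge : ℕ → Poly → Poly → Poly
  | 0, p, q => p ++ q
  | _ + 1, [], q => q
  | _ + 1, a :: p, [] => a :: p
  | n + 1, a :: p, b :: q =>
    bif Nat.blt a.1 b.1 then a :: merge n p (b :: q)
    else bif Nat.blt b.1 a.1 then b :: merge n (a :: p) q
    else (a.1, (a.2.1 + b.2.1, a.2.2 + b.2.2)) :: merge n p q

lemma evP_merge (w : Fin 6 → ℂ) : ∀ (n : ℕ) (p q : Poly),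
    evP w (merge n p q) = evP w p + evP w q := by
  intro n
  induction n with
  | zero => intro p q; simp [merge]
  | succ n ih =>
    intro p q
    rcases p with _ | ⟨a, p⟩
    · simp [merge]
    rcases q with _ | ⟨b, q⟩
    · simp [merge]
    simp only [merge]
    cases h1 : Nat.blt a.1 b.1
    · cases h2 : Nat.blt b.1 a.1
      · have e : a.1 = b.1 := by
          have x : ¬ a.1 < b.1 := fun h => by rw [← Nat.blt_eq, h1] at h; exact absurd h (by simp)
          have y : ¬ b.1 < a.1 := fun h => by rw [← Nat.blt_eq, h2] at h; exact absurd h (by simp)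
          omega
        simp only [cond_false, evP_cons, ih, e, eis]
        push_cast
        ring
      · simp only [cond_false, cond_true, evP_cons, ih]; ring
    · simp only [cond_true, evP_cons, ih]; ring

/-- addition -/
def add (p q : Poly) : Poly := merge 100000 p q

lemma evP_add (w : Fin 6 → ℂ) (p q : Poly) : evP w (add p q) = evP w p + evP w q :=
  evP_merge w _ p q

/-- multiplication by a term -/
def mulT (t : ℕ × Eis) (q : Poly) : Poly := q.map fun u => (t.1 + u.1, eMul t.2 u.2)

lemma evP_mulT {A B : ℕ} (w : Fin 6 → ℂ) {t : ℕ × Eis} (ht : small 6 A t.1 = true) {q : Poly}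
    (hq : sm B q = true) (hAB : A + B < 16) :
    evP w (mulT t q) = eis t.2 * mon w t.1 * evP w q := by
  induction q with
  | nil => simp [mulT]
  | cons u q ih =>
    simp only [sm, List.all_cons, Bool.and_eq_true] at hq
    have h := ih (by simpa [sm] using hq.2)
    simp only [mulT, List.map_cons, evP_cons] at h ⊢
    rw [h, mon, mon, ev_add _ ht hq.1 hAB, eis_mul, mon]
    ring

/-- scalar multiplication -/
def smul (z : Eis) (q : Poly) : Poly := q.map fun u => (u.1, eMul z u.2)

lemma evP_smul (w : Fin 6 → ℂ) (z : Eis) (q : Poly) : evP w (smul z q) = eis z * evP w q := by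
  induction q with
  | nil => simp [smul]
  | cons u q ih =>
    simp only [smul, List.map_cons, evP_cons] at ih ⊢
    rw [ih, eis_mul]
    ring

/-- multiplication -/
def mul (p q : Poly) : Poly := p.foldr (fun t r => add (mulT t q) r) []

lemma evP_mul {A B : ℕ} (w : Fin 6 → ℂ) {p q : Poly} (hp : sm A p = true) (hq : sm B q = true)
    (hAB : A + B < 16) : evP w (mul p q) = evP w p * evP w q := by
  induction p with
  | nil => simp [mul]
  | cons t p ih =>
    simp only [sm, List.all_cons, Bool.and_eq_true] at hp
    simp only [mul, List.foldr_cons, evP_add, evP_cons]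
    rw [evP_mulT w hp.1 hq hAB]
    rw [show List.foldr (fun t r => add (mulT t q) r) [] p = mul p q from rfl,
      ih (by simpa [sm] using hp.2)]
    ring

/-- a finite sum -/
def psum (f : Fin 6 → Poly) : Poly :=
  add (add (add (f 0) (f 1)) (add (f 2) (f 3))) (add (f 4) (f 5))

lemma evP_psum (w : Fin 6 → ℂ) (f : Fin 6 → Poly) : evP w (psum f) = ∑ i, evP w (f i) := by
  simp only [psum, evP_add, Fin.sum_univ_six]
  ring

/-- all coefficients vanish -/
def isZero (p : Poly) : Bool := p.all fun t => t.2.1 == 0 && t.2.2 == 0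

lemma evP_eq_zero (w : Fin 6 → ℂ) {p : Poly} (h : isZero p = true) : evP w p = 0 := by
  induction p with
  | nil => rfl
  | cons t p ih =>
    simp only [isZero, List.all_cons, Bool.and_eq_true, beq_iff_eq] at h
    rw [evP_cons, ih (by simpa [isZero] using h.2), eis, h.1.1, h.1.2]
    simp

/-- the sum of two polynomials cancels -/
lemma evP_eq_of_check (w : Fin 6 → ℂ) {p q : Poly}
    (h : isZero (add p (smul (-1, 0) q)) = true) : evP w p = evP w q := by
  have e := evP_eq_zero w h
  rw [evP_add, evP_smul, eis] at e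
  push_cast at e
  linear_combination e

end Vale.Agent.P355.Tao
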