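import Vale.Agent.P355.Tao.Sem

/-!
P355: the certificate is negative on every regular Hadamard matrix equivalent to the Tao matrix.
-/

noncomputable section

open scoped BigOperators ComplexConjugate
open Finset

namespace Vale.Agent.P355.Tao

lemma conjS_col (k k' : Fin 6) :
    ∑ l, S l k ^ 2 * conj (S l k' ^ 2) = if k = k' then 6 else 0 := by
  simp only [S_sq, Complex.conj_conj]
  calc _ = conj (∑ l, S l k * conj (S l k')) := by
        simp only [map_sum, map_mul, Complex.conj_conj]
    _ = _ := by rw [S_col]; split_ifs <;> simp [map_ofNat]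

lemma conjS_row (l m : Fin 6) :
    ∑ k, S l k ^ 2 * conj (S m k ^ 2) = if l = m then 6 else 0 := by
  simp only [fun k => S_symm l k, fun k => S_symm m k, conjS_col]

lemma qN_S : qN S = 216 := by
  simp only [qN, conjS_col]
  simp
  norm_num

lemma termInv_S : termInv S = 0 := by
  refine Finset.sum_eq_zero fun l _ => Finset.sum_eq_zero fun m _ => ?_
  split_ifs with h
  · rfl
  · have e : ∑ k, (S l k * conj (S m k)) ^ 2 = 0 := by
      simp only [mul_pow, ← map_pow, conjS_row, if_neg h]
    rw [e, map_zero]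

/-- the sum of the squared entries of a vector transformed by the squared matrix -/
lemma parseval (v : Fin 6 → ℂ) (hv : ∀ k, v k * conj (v k) = 1) :
    ∑ l, (∑ k, S l k ^ 2 * v k) * conj (∑ k, S l k ^ 2 * v k) = 36 := by
  calc _ = ∑ k, ∑ k', v k * conj (v k') * ∑ l, S l k ^ 2 * conj (S l k' ^ 2) := by
        simp only [map_sum, map_mul, sum_mul_sum]
        simp only [mul_sum]
        rw [sum_comm]
        refine sum_congr rfl fun k _ => ?_
        rw [sum_comm]
        exact sum_congr rfl fun k' _ => sum_congr rfl fun l _ => by ring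
    _ = ∑ k, 6 * (v k * conj (v k)) := by
        simp only [conjS_col, mul_ite, mul_zero, sum_ite_eq, mem_univ, if_true]
        exact sum_congr rfl fun k _ => by ring
    _ = 36 := by simp only [hv]; simp; norm_num

variable {w : Fin 6 → ℂ} (hw : ∀ i, ‖w i‖ = 1) (hy : ∀ k, ‖∑ j, conj (S j k) * w j‖ ^ 2 = 6)

include hw in
lemma qR_S : qR S w = 36 := by
  have h := parseval (fun l => conj (w l) ^ 2) fun l => by
    rw [map_pow, Complex.conj_conj, ← mul_pow, mul_comm, conj_mul_self_of_norm (hw l), one_pow]
  simp only [qR, qB]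
  simpa only [fun k l => S_symm k l] using h

include hy in
lemma qR'_S : qR' S w = 36 := by
  refine parseval (fun k => yv S w k ^ 2) fun k => ?_
  rw [map_pow, ← mul_pow, conj_mul_self_of_norm (yv_unimod hy k), one_pow]

lemma qZ_S : qZ S w = 6 * q1 S w := by
  simp only [qZ, q1, qB, mul_sum]
  refine sum_congr rfl fun l _ => ?_
  calc _ = ∑ i, qA S w l * conj (w i) ^ 2 * ∑ k, S i k ^ 2 * conj (S l k ^ 2) := by
        simp only [sum_mul, mul_sum]
        rw [sum_comm]
        exact sum_congr rfl fun i _ => sum_congr rfl fun k _ => by ring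
    _ = _ := by
        simp only [conjS_row, mul_ite, mul_zero, sum_ite_eq', mem_univ, if_true]
        ring

lemma yv_eq (k : Fin 6) : yv S w k = cst * sv w k := rfl

lemma q1_S : q1 S w = fSum w / 6 := by
  simp only [q1, qA, fSum, yv_eq, sum_div, mul_sum]
  refine sum_congr rfl fun l _ => sum_congr rfl fun k _ => ?_
  linear_combination (conj (w l) ^ 2 * S l k ^ 2 * sv w k ^ 2) * cst_mul_cst

lemma qG_S : qG S w = pairSum w / 6 := by
  simp only [qG, pairSum, sum_div]
  refine sum_congr rfl fun l _ => sum_congr rfl fun m _ => ?_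
  have e : ∀ l m, qC S w l m = cst * ∑ k, S l k ^ 2 * conj (S m k) * sv w k := fun l m => by
    simp only [qC, yv_eq, mul_sum]
    exact sum_congr rfl fun k _ => by ring
  rw [e, e]
  linear_combination (conj (w l) * conj (w m) *
    ((∑ k, S l k ^ 2 * conj (S m k) * sv w k) * ∑ k, S m k ^ 2 * conj (S l k) * sv w k))
      * cst_mul_cst

include hw hy

/-- on vectors unbiased to the standard basis and to the Tao matrix the polynomial is negative -/
theorem qPhi_neg : (qPhi S w).re ≤ -57 := by
  have hp := pair_rel hw hy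
  have hc := cube_rel hw hy
  have h6 : ∀ z : ℂ, (z / 6).re = z.re / 6 := fun z => by simp
  rw [qPhi, qR_S hw, qR'_S hy, qN_S, qZ_S, qG_S, q1_S]
  simp only [Complex.add_re, Complex.sub_re, sub_self, zero_div, add_zero, mul_zero, sub_zero,
    Complex.mul_re, h6]
  norm_num
  linarith

/-- the certificate on the Tao branch in standard position -/
theorem phi_hmat_neg : Phi (hmat S w) ≤ -57 := by
  rw [phi_hmat hw hy (by rw [termInv_S, qN_S]; simp)]
  exact qPhi_neg hw hy

omit hw hy

/-- permutation of rows and columns of the certificate -/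
theorem phi_perm (h : Fin 6 → Fin 6 → ℂ) (p q : Fin 6 ≃ Fin 6) :
    Phi (fun l k => h (p l) (q k)) = Phi h := by
  have hr : ∀ l, rowSq (fun l k => h (p l) (q k)) l = rowSq h (p l) := fun l => by
    simp only [rowSq]; exact q.sum_comp fun k => h (p l) k ^ 2
  have hc : ∀ k, colSq (fun l k => h (p l) (q k)) k = colSq h (q k) := fun k => by
    simp only [colSq]; exact p.sum_comp fun l => h l (q k) ^ 2
  have hg : ∀ l m, pairG (fun l k => h (p l) (q k)) l m = pairG h (p l) (p m) := fun l m => by
    simp only [pairG]; exact q.sum_comp fun k => h (p l) k ^ 2 * conj (h (p m) k)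
  have e1 : termF (fun l k => h (p l) (q k)) = termF h := by
    simp only [termF, hr]; rw [p.sum_comp (fun l => rowSq h l)]
  have e2 : termR (fun l k => h (p l) (q k)) = termR h := by
    simp only [termR, hc]; rw [q.sum_comp (fun k => Complex.normSq (colSq h k))]
  have e3 : termR' (fun l k => h (p l) (q k)) = termR' h := by
    simp only [termR', hr]; rw [p.sum_comp (fun l => Complex.normSq (rowSq h l))]
  have e4 : termZ (fun l k => h (p l) (q k)) = termZ h := by
    simp only [termZ, hr, hc]
    rw [← p.sum_comp (fun l => ∑ k, rowSq h l * colSq h k * conj (h l k) ^ 2)]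
    congr 1
    exact sum_congr rfl fun l _ =>
      q.sum_comp fun k => rowSq h (p l) * colSq h k * conj (h (p l) k) ^ 2
  have e5 : termG2 (fun l k => h (p l) (q k)) = termG2 h := by
    simp only [termG2, hg]
    rw [← p.sum_comp (fun l => ∑ m, pairG h l m * pairG h m l)]
    congr 1
    exact sum_congr rfl fun l _ => p.sum_comp fun m => pairG h (p l) m * pairG h m (p l)
  have e6 : termInv (fun l k => h (p l) (q k)) = termInv h := by
    simp only [termInv]
    rw [← p.sum_comp (fun l => ∑ m, if l = m then 0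
      else Complex.normSq (∑ k, (h l k * conj (h m k)) ^ 2))]
    refine sum_congr rfl fun l _ => ?_
    rw [← p.sum_comp (fun m => if p l = m then 0
      else Complex.normSq (∑ k, (h (p l) k * conj (h m k)) ^ 2))]
    refine sum_congr rfl fun m _ => ?_
    simp only [p.injective.eq_iff]
    split_ifs with hlm
    · rfl
    · exact congrArg _ (q.sum_comp fun k => (h (p l) k * conj (h (p m) k)) ^ 2)
  simp only [Phi, e1, e2, e3, e4, e5, e6]

/-- a regular Hadamard matrix equivalent to the Tao matrix has negative certificate -/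
theorem phi_neg_of_equiv {h : Fin 6 → Fin 6 → ℂ} (hh : InM h) (p q : Fin 6 ≃ Fin 6)
    (a b : Fin 6 → ℂ) (he : ∀ l k, h l k = a l * b k * S (p l) (q k)) : Phi h ≤ -57 := by
  have hab : ∀ l k, ‖a l‖ * ‖b k‖ = 1 := fun l k => by
    have := hh.unimod l k
    rwa [he, norm_mul, norm_mul, norm_S, mul_one] at this
  set r : ℂ := (‖b 0‖ : ℂ) with hr
  have hb0 : ‖b 0‖ ≠ 0 := fun h0 => by simpa [h0] using hab 0 0
  set w : Fin 6 → ℂ := fun l => conj (a (p.symm l) * r) with hwdef
  have hw : ∀ i, ‖w i‖ = 1 := fun i => by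
    simp only [hwdef, hr, Complex.norm_conj, norm_mul, Complex.norm_real, norm_norm]
    exact hab _ 0
  set c : Fin 6 → ℂ := fun k => b (q.symm k) / r with hcdef
  have hr0 : r ≠ 0 := by simp [hr, hb0]
  have hform : ∀ l k, h (p.symm l) (q.symm k) = conj (w l) * S l k * c k := fun l k => by
    simp only [he, hwdef, hcdef, Complex.conj_conj, Equiv.apply_symm_apply]
    field_simp
  have hc : ∀ k, ‖c k‖ = 1 := fun k => by
    have := hh.unimod (p.symm 0) (q.symm k)
    rwa [hform, norm_mul, norm_mul, Complex.norm_conj, hw, norm_S, one_mul, one_mul] at this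
  have hrow : ∀ l, ∑ k, S l k * c k = (Real.sqrt 6 : ℂ) * w l := fun l => by
    have h1 := hh.row_sum (p.symm l)
    rw [← q.symm.sum_comp] at h1
    simp only [hform, mul_assoc] at h1
    rw [← mul_sum] at h1
    linear_combination w l * h1 - (∑ k, S l k * c k) * conj_mul_self_of_norm (hw l)
  have hyv : ∀ k, yv S w k = c k := fun k => by
    have h2 : ∑ l, conj (S l k) * ∑ j, S l j * c j = 6 * c k := by
      calc _ = ∑ j, c j * ∑ l, S l j * conj (S l k) := by
            simp only [mul_sum]
            rw [sum_comm]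
            exact sum_congr rfl fun j _ => sum_congr rfl fun l _ => by ring
        _ = 6 * c k := by
            simp only [S_col, mul_ite, mul_zero, sum_ite_eq', mem_univ, if_true]; ring
    simp only [hrow] at h2
    have h3 : ∑ l, conj (S l k) * ((Real.sqrt 6 : ℂ) * w l) = (Real.sqrt 6 : ℂ) * sv w k := by
      rw [sv, mul_sum]; exact sum_congr rfl fun l _ => by ring
    rw [h3, ← six_cst] at h2
    rw [yv_eq]
    linear_combination (1 / 6 : ℂ) * h2
  have hy : ∀ k, ‖∑ j, conj (S j k) * w j‖ ^ 2 = 6 := fun k => by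
    have h4 : ∑ j, conj (S j k) * w j = (Real.sqrt 6 : ℂ) * c k := by
      rw [← hyv k, ← six_cst, yv]
      linear_combination (-6 * ∑ j, conj (S j k) * w j) * cst_mul_cst
    rw [h4, norm_mul, hc, mul_one, Complex.norm_real, Real.norm_eq_abs, sq_abs,
      Real.sq_sqrt (by norm_num)]
  have e : (fun l k => h (p.symm l) (q.symm k)) = hmat S w := by
    funext l k
    rw [hform, hmat, hyv]
  rw [← phi_perm h p.symm q.symm, e]
  exact phi_hmat_neg hw hy

/-- the conjugate of the Tao matrix is equivalent to it -/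
theorem conj_S_equiv : ∃ (p q : Fin 6 ≃ Fin 6) (a b : Fin 6 → ℂ),
    ∀ l k, conj (S l k) = a l * b k * S (p l) (q k) := by
  let p : Fin 6 ≃ Fin 6 := ⟨![0, 1, 2, 3, 5, 4], ![0, 1, 2, 3, 5, 4], by decide, by decide⟩
  let q : Fin 6 ≃ Fin 6 := ⟨![1, 0, 5, 4, 3, 2], ![1, 0, 5, 4, 3, 2], by decide, by decide⟩
  let α : Fin 6 → ℕ := ![0, 0, 1, 1, 2, 2]
  refine ⟨p, q, fun l => om ^ (2 * α l), fun _ => 1, fun l k => ?_⟩
  have h : ∀ l k, (2 * expo l k) % 3 = (2 * α l + expo (p l) (q k)) % 3 := by decide +kernel
  rw [conj_S, mul_one, S, ← pow_add, ← eis_omP, ← eis_omP]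
  simp only [omP, h l k]

/-- a regular Hadamard matrix equivalent to the conjugate Tao matrix has negative certificate -/
theorem phi_neg_of_conj_equiv {h : Fin 6 → Fin 6 → ℂ} (hh : InM h) (p q : Fin 6 ≃ Fin 6)
    (a b : Fin 6 → ℂ) (he : ∀ l k, h l k = a l * b k * conj (S (p l) (q k))) : Phi h ≤ -57 := by
  obtain ⟨p', q', a', b', e⟩ := conj_S_equiv
  refine phi_neg_of_equiv hh (p.trans p') (q.trans q') (fun l => a l * a' (p l))
    (fun k => b k * b' (q k)) fun l k => ?_
  simp only [he, e, Equiv.trans_apply]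
  ring

end Vale.Agent.P355.Tao
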