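import Vale.Agent.P355.Tao.Cert
import Vale.Agent.P355.Reduction

/-!
P355: the meaning of the polynomials of the Tao branch.
-/

noncomputable section

open scoped BigOperators ComplexConjugate
open Finset

namespace Vale.Agent.P355.Tao

/-- the Tao matrix -/
def S (l k : Fin 6) : ℂ := om ^ expo l k

lemma norm_om : ‖om‖ = 1 := Complex.norm_eq_one_of_pow_eq_one om_cube (by norm_num)

lemma norm_S (l k : Fin 6) : ‖S l k‖ = 1 := by simp [S, norm_om]

lemma conj_S (l k : Fin 6) : conj (S l k) = om ^ (2 * expo l k) := by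
  rw [S, map_pow, conj_om, ← pow_mul]

lemma om_pow_three (e : ℕ) : om ^ (3 * e) = 1 := by rw [pow_mul, om_cube, one_pow]

lemma S_sq (l k : Fin 6) : S l k ^ 2 = conj (S l k) := by rw [conj_S, S, ← pow_mul, mul_comm]

/-- the value of the coefficient sum of a matrix relation -/
def eSum (f : Fin 6 → ℕ) : Eis :=
  ((∑ k, (omP (f k)).1), ∑ k, (omP (f k)).2)

lemma eis_eSum (f : Fin 6 → ℕ) : eis (eSum f) = ∑ k, om ^ f k := by
  simp only [← eis_omP, eis, eSum, sum_add_distrib, ← sum_mul]
  push_cast
  rfl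

lemma expo_row : ∀ l m, eSum (fun k => expo l k + 2 * expo m k) = if l = m then (6, 0) else (0, 0) := by
  decide +kernel

lemma expo_symm : ∀ l m, expo l m = expo m l := by decide +kernel

lemma S_symm (l m : Fin 6) : S l m = S m l := by rw [S, S, expo_symm]

lemma S_row (l m : Fin 6) : ∑ k, S l k * conj (S m k) = if l = m then 6 else 0 := by
  simp only [conj_S]
  simp only [S, ← pow_add]
  rw [← eis_eSum, expo_row]
  split_ifs <;> simp [eis]

lemma S_col (k k' : Fin 6) : ∑ l, S l k * conj (S l k') = if k = k' then 6 else 0 := by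
  simp only [fun l => S_symm l k, fun l => S_symm l k', S_row]

lemma isHad_S : IsHad S := ⟨norm_S, S_col, S_row⟩

variable {w : Fin 6 → ℂ}

/-- conjugate of the product of the variables -/
def ee (w : Fin 6 → ℂ) : ℂ := conj (mon w ones)

/-- the value of a polynomial of level `N` -/
def val (w : Fin 6 → ℂ) (N : ℕ) (p : Poly) : ℂ := ee w ^ N * evP w p

lemma mon_single (w : Fin 6 → ℂ) (j : Fin 6) : mon w (pw j) = w j := by
  fin_cases j <;> simp [mon, pw, ev, ext]

lemma mon_ones (w : Fin 6 → ℂ) : mon w ones = w 0 * (w 1 * (w 2 * (w 3 * (w 4 * w 5)))) := by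
  simp [mon, ones, ev, ext]

lemma ee_ones (hw : ∀ i, ‖w i‖ = 1) : ee w * mon w ones = 1 := by
  rw [ee, mul_comm]
  exact conj_mul_self_of_norm (by simp [mon_ones, hw])

lemma small_pw : ∀ j, small 6 1 (pw j) = true := by decide +kernel

lemma small_pv : ∀ j, small 6 1 (pv j) = true := by decide +kernel

lemma pv_add : ∀ j, pv j + pw j = ones := by decide +kernel

lemma ee_pv (hw : ∀ i, ‖w i‖ = 1) (j : Fin 6) : ee w * mon w (pv j) = conj (w j) := by
  have h : mon w (pv j) * w j = mon w ones := by
    conv_rhs => rw [← pv_add j]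
    conv_lhs => rw [← mon_single w j]
    exact (ev_add _ (small_pv j) (small_pw j) (by norm_num)).symm
  linear_combination (conj (w j) * ee w) * h + conj (w j) * ee_ones hw
    - (ee w * mon w (pv j)) * conj_mul_self_of_norm (hw j)

lemma mon_add {A B a b : ℕ} (ha : small 6 A a = true) (hb : small 6 B b = true) (h : A + B < 16) :
    mon w (a + b) = mon w a * mon w b := ev_add _ ha hb h

lemma val_add (N : ℕ) (p q : Poly) : val w N (add p q) = val w N p + val w N q := by
  rw [val, evP_add]; simp only [val]; ring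

lemma val_smul (N : ℕ) (z : Eis) (p : Poly) : val w N (smul z p) = eis z * val w N p := by
  rw [val, evP_smul]; simp only [val]; ring

lemma val_psum (N : ℕ) (f : Fin 6 → Poly) : val w N (psum f) = ∑ i, val w N (f i) := by
  simp only [val, evP_psum, mul_sum]

lemma val_mul {A B : ℕ} (M N : ℕ) {p q : Poly} (hp : sm A p = true) (hq : sm B q = true)
    (h : A + B < 16) : val w (M + N) (mul p q) = val w M p * val w N q := by
  simp only [val, evP_mul w hp hq h, pow_add]; ring

lemma val_mulT {A B : ℕ} (M N : ℕ) {t : ℕ × Eis} (ht : small 6 A t.1 = true) {q : Poly}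
    (hq : sm B q = true) (h : A + B < 16) :
    val w (M + N) (mulT t q) = eis t.2 * (ee w ^ M * mon w t.1) * val w N q := by
  simp only [val, evP_mulT w ht hq h, pow_add]; ring

lemma val_single (N c : ℕ) (z : Eis) : val w N [(c, z)] = eis z * (ee w ^ N * mon w c) := by
  simp [val]; ring

lemma eis_one : eis (1, 0) = 1 := by simp [eis]

lemma val_wj (j : Fin 6) (z : Eis) : val w 0 [(pw j, z)] = eis z * w j := by
  rw [val_single, mon_single]; ring

lemma val_vj (hw : ∀ i, ‖w i‖ = 1) (j : Fin 6) (z : Eis) :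
    val w 1 [(pv j, z)] = eis z * conj (w j) := by
  rw [val_single, pow_one, ee_pv hw]

/-- the scalar products with the columns -/
def sv (w : Fin 6 → ℂ) (k : Fin 6) : ℂ := ∑ j, conj (S j k) * w j

lemma val_sP (k : Fin 6) : val w 0 (sP k) = sv w k := by
  simp only [sP, val_psum, val_wj, eis_omP, sv, conj_S]

lemma val_tP (hw : ∀ i, ‖w i‖ = 1) (k : Fin 6) : val w 1 (tP k) = conj (sv w k) := by
  simp only [tP, val_psum, val_vj hw, eis_omP, sv, map_sum, map_mul, Complex.conj_conj, S]

lemma small_sP : ∀ k, sm 1 (sP k) = true := by decide +kernel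
lemma small_tP : ∀ k, sm 1 (tP k) = true := by decide +kernel
lemma small_gP : ∀ k, sm 2 (gP k) = true := by decide +kernel
lemma small_mult : ∀ k, sm 4 (mult k) = true := by decide +kernel
lemma small_aP : ∀ l, sm 2 (aP l) = true := by decide +kernel
lemma small_aQ : ∀ l, sm 2 (aQ l) = true := by decide +kernel
lemma small_cP : ∀ l m, sm 1 (cP l m) = true := by decide +kernel
lemma small_cQ : ∀ l m, sm 1 (cQ l m) = true := by decide +kernel
lemma small_cPP : ∀ l m, sm 2 (mul (cP l m) (cP m l)) = true := by decide +kernel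
lemma small_cQQ : ∀ l m, sm 2 (mul (cQ l m) (cQ m l)) = true := by decide +kernel
lemma small_cubeP : sm 3 cubeP = true := by decide +kernel
lemma small_cubeQ : sm 3 cubeQ = true := by decide +kernel
lemma small_f : sm 4 (smul (3, 0) (add fP fQ)) = true := by decide +kernel
lemma small_vv : ∀ l m, small 6 2 (pv l + pv m) = true := by decide +kernel
lemma small_ww : ∀ l m, small 6 2 (pw l + pw m) = true := by decide +kernel
lemma small_ones : small 6 1 ones = true := by decide +kernel
lemma small_ones2 : small 6 2 (ones + ones) = true := by decide +kernel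

lemma ee_vv (hw : ∀ i, ‖w i‖ = 1) (l m : Fin 6) :
    ee w ^ 2 * mon w (pv l + pv m) = conj (w l) * conj (w m) := by
  rw [mon_add (small_pv l) (small_pv m) (by norm_num), ← ee_pv hw l, ← ee_pv hw m]; ring

lemma ee_ww (l m : Fin 6) : ee w ^ 0 * mon w (pw l + pw m) = w l * w m := by
  rw [mon_add (small_pw l) (small_pw m) (by norm_num), mon_single, mon_single]; ring

lemma val_gP (hw : ∀ i, ‖w i‖ = 1) (k : Fin 6) :
    val w 1 (gP k) = sv w k * conj (sv w k) - 6 := by
  have e := val_mul (w := w) 0 1 (small_sP k) (small_tP k) (by norm_num)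
  rw [val_sP, val_tP hw, zero_add] at e
  rw [gP, val_add, e, val_single, pow_one, ee_ones hw]
  simp [eis]
  ring

lemma val_aP (l : Fin 6) : val w 0 (aP l) = ∑ k, S l k ^ 2 * sv w k ^ 2 := by
  simp only [aP, val_psum, val_smul, eis_omP]
  refine sum_congr rfl fun k _ => ?_
  have e := val_mul (w := w) 0 0 (small_sP k) (small_sP k) (by norm_num)
  rw [val_sP, zero_add] at e
  rw [e, S, ← pow_mul, mul_comm (expo l k) 2, sq]

lemma val_aQ (hw : ∀ i, ‖w i‖ = 1) (l : Fin 6) :
    val w 2 (aQ l) = conj (∑ k, S l k ^ 2 * sv w k ^ 2) := by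
  simp only [aQ, val_psum, val_smul, eis_omP, map_sum, map_mul, map_pow]
  refine sum_congr rfl fun k _ => ?_
  have e := val_mul (w := w) 1 1 (small_tP k) (small_tP k) (by norm_num)
  rw [val_tP hw] at e
  rw [e, ← map_pow conj (S l k), S_sq, Complex.conj_conj, S, sq]

lemma val_cP (l m : Fin 6) :
    val w 0 (cP l m) = ∑ k, S l k ^ 2 * conj (S m k) * sv w k := by
  simp only [cP, val_psum, val_smul, eis_omP, val_sP]
  refine sum_congr rfl fun k _ => ?_
  rw [S_sq, conj_S, conj_S, pow_add]

lemma val_cQ (hw : ∀ i, ‖w i‖ = 1) (l m : Fin 6) :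
    val w 1 (cQ l m) = conj (∑ k, S l k ^ 2 * conj (S m k) * sv w k) := by
  simp only [cQ, val_psum, val_smul, eis_omP, val_tP hw, map_sum, map_mul]
  refine sum_congr rfl fun k _ => ?_
  rw [S_sq, Complex.conj_conj, Complex.conj_conj, S, S, pow_add]

/-- six times the linear invariant -/
def fSum (w : Fin 6 → ℂ) : ℂ := ∑ l, conj (w l) ^ 2 * ∑ k, S l k ^ 2 * sv w k ^ 2

/-- six times the pair invariant -/
def pairSum (w : Fin 6 → ℂ) : ℂ :=
  ∑ l, ∑ m, conj (w l) * conj (w m) *
    ((∑ k, S l k ^ 2 * conj (S m k) * sv w k) * ∑ k, S m k ^ 2 * conj (S l k) * sv w k)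

lemma val_fP (hw : ∀ i, ‖w i‖ = 1) : val w 2 (fP) = fSum w := by
  simp only [fP, fSum, val_psum]
  refine sum_congr rfl fun l _ => ?_
  rw [show (2 : ℕ) = 2 + 0 by rfl, val_mulT 2 0 (small_vv l l) (small_aP l) (by norm_num),
    ee_vv hw, eis_one, val_aP]
  ring

lemma val_fQ (hw : ∀ i, ‖w i‖ = 1) : val w 2 (fQ) = conj (fSum w) := by
  simp only [fQ, fSum, val_psum, map_sum]
  refine sum_congr rfl fun l _ => ?_
  rw [show (2 : ℕ) = 0 + 2 by rfl, val_mulT 0 2 (small_ww l l) (small_aQ l) (by norm_num),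
    ee_ww, eis_one, val_aQ hw]
  simp only [map_mul, map_pow, map_sum, Complex.conj_conj]
  ring

lemma val_pairP (hw : ∀ i, ‖w i‖ = 1) : val w 2 (pairP) = pairSum w := by
  simp only [pairP, pairSum, val_psum]
  refine sum_congr rfl fun l _ => sum_congr rfl fun m _ => ?_
  have e := val_mul (w := w) 0 0 (small_cP l m) (small_cP m l) (by norm_num)
  rw [val_cP, val_cP, zero_add] at e
  rw [show (2 : ℕ) = 2 + 0 by rfl, val_mulT 2 0 (small_vv l m) (small_cPP l m) (by norm_num),
    ee_vv hw, eis_one, e]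
  ring

lemma val_pairQ (hw : ∀ i, ‖w i‖ = 1) : val w 2 (pairQ) = conj (pairSum w) := by
  simp only [pairQ, pairSum, val_psum, map_sum]
  refine sum_congr rfl fun l _ => sum_congr rfl fun m _ => ?_
  have e := val_mul (w := w) 1 1 (small_cQ l m) (small_cQ m l) (by norm_num)
  rw [val_cQ hw, val_cQ hw] at e
  rw [show (2 : ℕ) = 0 + 2 by rfl, val_mulT 0 2 (small_ww l m) (small_cQQ l m) (by norm_num),
    ee_ww, eis_one, e]
  simp only [map_mul, map_sum, Complex.conj_conj]
  ring

lemma val_cubeP : val w 0 (cubeP) = ∑ j, w j ^ 3 := by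
  simp only [cubeP, val_psum, val_single, eis_one]
  refine sum_congr rfl fun j _ => ?_
  rw [mon_add (small_ww j j) (small_pw j) (by norm_num),
    mon_add (small_pw j) (small_pw j) (by norm_num), mon_single]
  ring

lemma val_cubeQ (hw : ∀ i, ‖w i‖ = 1) : val w 3 (cubeQ) = conj (∑ j, w j ^ 3) := by
  simp only [cubeQ, val_psum, val_single, eis_one, map_sum, map_pow]
  refine sum_congr rfl fun j _ => ?_
  rw [mon_add (small_vv j j) (small_pv j) (by norm_num),
    mon_add (small_pv j) (small_pv j) (by norm_num), ← ee_pv hw j]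
  ring

variable (hw : ∀ i, ‖w i‖ = 1) (hy : ∀ k, ‖sv w k‖ ^ 2 = 6)
include hw hy

lemma gP_zero (k : Fin 6) : val w 1 (gP k) = 0 := by
  rw [val_gP hw, Complex.mul_conj, Complex.normSq_eq_norm_sq, hy]
  norm_num

lemma pair_rel : (pairSum w).re + 9 * (fSum w).re = 0 := by
  have e : val w 2 lhs1 = val w 2 rhs1 := by simp only [val, evP_eq_of_check w check1]
  have hR : val w 2 rhs1 = 0 := by
    simp only [rhs1, val_psum, val_smul]
    refine sum_eq_zero fun k _ => ?_
    rw [show (2 : ℕ) = 1 + 1 by rfl, val_mul 1 1 (small_gP k) (small_gP k) (by norm_num),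
      gP_zero hw hy]
    ring
  rw [hR, lhs1, val_add, val_add, val_smul, val_add, val_pairP hw, val_pairQ hw, val_fP hw,
    val_fQ hw] at e
  have h := congrArg Complex.re e
  simp [eis] at h
  linarith

lemma cube_rel : (fSum w).re ≤ -18 := by
  have e : val w 3 lhs2 = val w 3 rhs2 := by simp only [val, evP_eq_of_check w check2]
  have hR : val w 3 rhs2 = 0 := by
    simp only [rhs2, val_psum]
    refine sum_eq_zero fun k _ => ?_
    rw [show (3 : ℕ) = 1 + 2 by rfl, val_mul 1 2 (small_gP k) (small_mult k) (by norm_num),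
      gP_zero hw hy]
    ring
  have hK := val_mul (w := w) 0 3 small_cubeP small_cubeQ (by norm_num)
  rw [val_cubeP, val_cubeQ hw, zero_add] at hK
  have h3 : ee w ^ 3 * mon w (ones + ones + ones) = 1 := by
    rw [mon_add small_ones2 small_ones (by norm_num),
      mon_add small_ones small_ones (by norm_num)]
    linear_combination ((ee w * mon w ones) ^ 2 + ee w * mon w ones + 1) * ee_ones hw
  have hF : val w 3 (mulT (ones, (1, 0)) (smul (3, 0) (add fP fQ))) =
      eis (3, 0) * (fSum w + conj (fSum w)) := by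
    rw [show (3 : ℕ) = 1 + 2 by rfl, val_mulT 1 2 small_ones small_f (by norm_num), val_smul,
      val_add, val_fP hw, val_fQ hw, pow_one, ee_ones hw, eis_one]
    ring
  rw [hR, lhs2, val_add, val_add, val_smul, hK, hF, val_single, h3, Complex.mul_conj] at e
  have h := congrArg Complex.re e
  simp [eis] at h
  linarith [Complex.normSq_nonneg (∑ j, w j ^ 3)]

end Vale.Agent.P355.Tao
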